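import Vale.Agent.P309B7.Defs

/-!
# P309: the learning experiment with shared randomness
-/

namespace Vale.Agent.P309C9

open MeasureTheory ProbabilityTheory Vale.Agent.P309B7
open scoped ENNReal

universe u

variable {d : ℕ} {R Ω : Type u} [MeasurableSpace R] [MeasurableSpace Ω]

/-- The signal `S` is uniform on the sphere, the rows `X t` are independent standard Gaussian and
independent of the signal, and the sequence of the seeds `U t` is independent of the signal and the
rows; the seeds have an arbitrary joint law (they may all be equal). -/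
structure IsShared (P : Measure Ω) (S : Ω → Sph d) (X : ℕ → Ω → Eu d) (U : ℕ → Ω → R) :
    Prop where
  prob : IsProbabilityMeasure P
  measS : Measurable S
  measX : ∀ t, Measurable (X t)
  measU : ∀ t, Measurable (U t)
  lawS : P.map S = P309.unifSphere (Eu d)
  lawX : ∀ t, P.map (X t) = stdGaussian (Eu d)
  indX : iIndepFun X P
  indSX : IndepFun S (fun ω t => X t ω) P
  indSXU : IndepFun (fun ω => (S ω, fun t => X t ω)) (fun ω t => U t ω) P

/-- The least horizon of a learner with `M` bits, whose output rule does not depend on the index,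
which succeeds at accuracy `ε`; it is `⊤` if there is none. -/
noncomputable def leastT (d M : ℕ) (ε : ℝ) : ℕ∞ :=
  ⨅ (T : ℕ) (_ : ∃ (N : ℕ) (R Ω : Type) (_ : MeasurableSpace R) (_ : MeasurableSpace Ω)
    (L : Rule d N R) (P : Measure Ω) (S : Ω → Sph d) (X : ℕ → Ω → Eu d) (U : ℕ → Ω → R),
    N ≤ 2 ^ M ∧ (∀ t, L.out t = L.out 0) ∧ IsShared P S X U ∧
      2 / 3 ≤ L.success T ε P S X U), (T : ℕ∞)

end Vale.Agent.P309C9
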