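import Vale.Agent.P309B7.Defs

/-!
# P309: a reflection argument, fewer than `d / 4` rows never suffice
-/

namespace Vale.Agent.P309C9

open MeasureTheory ProbabilityTheory Vale.Agent.P309B7 Set
open scoped ENNReal RealInnerProductSpace Pointwise

variable {d : ℕ}

/-- the map of the sphere given by a linear isometry. -/
noncomputable def sphMap (f : Eu d ≃ₗᵢ[ℝ] Eu d) (s : Sph d) : Sph d :=
  ⟨f s, by
    have h := s.2
    rw [mem_sphere_zero_iff_norm] at h ⊢
    rw [f.norm_map, h]⟩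

theorem meas_sphMap (f : Eu d ≃ₗᵢ[ℝ] Eu d) : Measurable (sphMap f) :=
  (f.continuous.measurable.comp measurable_subtype_coe).subtype_mk

theorem mp_sphMap (f : Eu d ≃ₗᵢ[ℝ] Eu d) :
    MeasurePreserving (sphMap f) (P309.unifSphere (Eu d)) (P309.unifSphere (Eu d)) := by
  refine ⟨meas_sphMap f, Measure.ext fun A hA => ?_⟩
  rw [Measure.map_apply (meas_sphMap f) hA, P309.unifSphere, Measure.smul_apply,
    Measure.smul_apply, Measure.toSphere_apply' _ hA,
    Measure.toSphere_apply' _ (meas_sphMap f hA)]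
  have e : Ioo (0 : ℝ) 1 • ((↑) '' (sphMap f ⁻¹' A) : Set (Eu d)) =
      f.toMeasurableEquiv ⁻¹' (Ioo (0 : ℝ) 1 • ((↑) '' A : Set (Eu d))) := by
    ext v
    constructor
    · rintro ⟨r, hr, _, ⟨s, hs, rfl⟩, rfl⟩
      exact ⟨r, hr, _, ⟨_, hs, rfl⟩, (f.map_smul r s).symm⟩
    · rintro ⟨r, hr, _, ⟨s, hs, rfl⟩, h⟩
      refine ⟨r, hr, _, ⟨sphMap f.symm s, ?_, rfl⟩, ?_⟩
      · have : sphMap f (sphMap f.symm s) = s := Subtype.ext (f.apply_symm_apply s)
        rw [mem_preimage, this]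
        exact hs
      · apply f.injective
        change f (r • f.symm s) = f v
        rw [f.map_smul, f.apply_symm_apply]
        exact h
  rw [e, MeasurePreserving.measure_preimage_equiv (f := f.toMeasurableEquiv) f.measurePreserving]

theorem nrm (s : Sph d) : ‖(s : Eu d)‖ = 1 := mem_sphere_zero_iff_norm.1 s.2

theorem meas_sq (e : Eu d) : Measurable fun s : Sph d => ENNReal.ofReal (⟪e, (s : Eu d)⟫ ^ 2) :=
  ((measurable_const.inner measurable_subtype_coe).pow_const 2).ennreal_ofReal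

theorem mom_eq {e e' : Eu d} (h : ‖e‖ = ‖e'‖) :
    ∫⁻ s : Sph d, ENNReal.ofReal (⟪e, (s : Eu d)⟫ ^ 2) ∂P309.unifSphere (Eu d) =
      ∫⁻ s : Sph d, ENNReal.ofReal (⟪e', (s : Eu d)⟫ ^ 2) ∂P309.unifSphere (Eu d) := by
  rw [← (mp_sphMap (ℝ ∙ (e - e'))ᗮ.reflection).lintegral_comp (meas_sq e')]
  refine lintegral_congr fun s => ?_
  change _ = ENNReal.ofReal (⟪e', (ℝ ∙ (e - e'))ᗮ.reflection (s : Eu d)⟫ ^ 2)
  have h1 := (ℝ ∙ (e - e'))ᗮ.reflection.inner_map_map e (s : Eu d)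
  rw [Submodule.reflection_sub h] at h1
  rw [h1]

theorem mom_mul [IsProbabilityMeasure (P309.unifSphere (Eu d))] {e : Eu d} (h : ‖e‖ = 1) :
    (d : ℝ≥0∞) * ∫⁻ s : Sph d, ENNReal.ofReal (⟪e, (s : Eu d)⟫ ^ 2) ∂P309.unifSphere (Eu d) = 1 := by
  let b := EuclideanSpace.basisFun (Fin d) ℝ
  have h1 : ∑ i, ∫⁻ s : Sph d, ENNReal.ofReal (⟪b i, (s : Eu d)⟫ ^ 2) ∂P309.unifSphere (Eu d) = 1 := by
    rw [← lintegral_finsetSum _ fun i _ => meas_sq (b i)]
    have : ∀ s : Sph d, ∑ i, ENNReal.ofReal (⟪b i, (s : Eu d)⟫ ^ 2) = 1 := fun s => by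
      rw [← ENNReal.ofReal_sum_of_nonneg fun i _ => sq_nonneg _, b.sum_sq_inner_right, nrm]
      simp
    simp [this]
  rw [← h1, Finset.sum_congr rfl fun i _ => mom_eq ((b.orthonormal.1 i).trans h.symm)]
  simp

/-- the second moment of the projection. -/
theorem mom_proj [IsProbabilityMeasure (P309.unifSphere (Eu d))] (hd : 1 ≤ d)
    (V : Submodule ℝ (Eu d)) :
    ∫⁻ s : Sph d, ENNReal.ofReal (‖V.starProjection (s : Eu d)‖ ^ 2) ∂P309.unifSphere (Eu d) =
      Module.finrank ℝ V / d := by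
  let b := stdOrthonormalBasis ℝ V
  have h1 : ∀ s : Sph d, ENNReal.ofReal (‖V.starProjection (s : Eu d)‖ ^ 2) =
      ∑ i, ENNReal.ofReal (⟪(b i : Eu d), (s : Eu d)⟫ ^ 2) := fun s => by
    rw [← ENNReal.ofReal_sum_of_nonneg fun i _ => sq_nonneg _]
    congr 1
    have h2 := b.sum_sq_inner_right (V.orthogonalProjectionOnto (s : Eu d))
    simp only [Submodule.inner_orthogonalProjectionOnto_eq_of_mem_left] at h2
    rw [h2]
    rfl
  have hd0 : (d : ℝ≥0∞) ≠ 0 := by exact_mod_cast (by omega : d ≠ 0)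
  have h3 : ∀ i, ∫⁻ s : Sph d, ENNReal.ofReal (⟪(b i : Eu d), (s : Eu d)⟫ ^ 2)
      ∂P309.unifSphere (Eu d) = (d : ℝ≥0∞)⁻¹ := fun i =>
    ENNReal.eq_inv_of_mul_eq_one_left (by
      rw [mul_comm]
      exact mom_mul (b.orthonormal.1 i))
  simp only [h1]
  rw [lintegral_finsetSum _ fun i _ => meas_sq _]
  simp [h3, div_eq_mul_inv]

theorem inner_ge {z s : Sph d} {ε : ℝ} (hε : ε ≤ 1 / 2)
    (h : Real.arccos ⟪(z : Eu d), (s : Eu d)⟫ ≤ ε) : 7 / 8 ≤ ⟪(z : Eu d), (s : Eu d)⟫ := by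
  have h1 := abs_real_inner_le_norm (z : Eu d) (s : Eu d)
  rw [nrm, nrm, mul_one, abs_le] at h1
  have h2 := Real.one_sub_sq_div_two_le_cos (x := Real.arccos ⟪(z : Eu d), (s : Eu d)⟫)
  rw [Real.cos_arccos h1.1 h1.2] at h2
  have h3 := Real.arccos_nonneg ⟪(z : Eu d), (s : Eu d)⟫
  nlinarith

/-- An estimator which is invariant under the reflection in `V` succeeds with probability at most
`1 / 2 + (2 / 3) dim V / d`. -/
theorem refl_bound [IsProbabilityMeasure (P309.unifSphere (Eu d))] (hd : 1 ≤ d)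
    (V : Submodule ℝ (Eu d)) {g : Sph d → Sph d} (hV : ∀ s, g (sphMap V.reflection s) = g s)
    {ε : ℝ} (hε : ε ≤ 1 / 2)
    (hA : MeasurableSet {s : Sph d | Real.arccos ⟪(g s : Eu d), (s : Eu d)⟫ ≤ ε}) :
    2 * P309.unifSphere (Eu d) {s : Sph d | Real.arccos ⟪(g s : Eu d), (s : Eu d)⟫ ≤ ε} ≤
      1 + (Module.finrank ℝ V / d) / ENNReal.ofReal (3 / 4) := by
  set A := {s : Sph d | Real.arccos ⟪(g s : Eu d), (s : Eu d)⟫ ≤ ε}
  have h1 := (mp_sphMap V.reflection).measure_preimage hA.nullMeasurableSet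
  have h2 := measure_union_add_inter' (μ := P309.unifSphere (Eu d)) hA (sphMap V.reflection ⁻¹' A)
  rw [h1] at h2
  rw [two_mul, ← h2]
  refine add_le_add prob_le_one ?_
  rw [← mom_proj hd V]
  refine le_trans (measure_mono fun s hs => ?_) (meas_ge_le_lintegral_div
    (((V.starProjection.continuous.measurable.comp measurable_subtype_coe).norm.pow_const
      2).ennreal_ofReal.aemeasurable) (by simp) ENNReal.ofReal_ne_top)
  refine ENNReal.ofReal_le_ofReal ?_
  have k1 := inner_ge hε hs.1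
  have k2 := inner_ge hε hs.2
  rw [hV] at k2
  change 7 / 8 ≤ ⟪(g s : Eu d), V.reflection (s : Eu d)⟫ at k2
  rw [Submodule.reflection_apply, inner_sub_right, two_smul, inner_add_right] at k2
  have k3 := real_inner_le_norm (g s : Eu d) (V.starProjection (s : Eu d))
  rw [nrm, one_mul] at k3
  change 3 / 4 ≤ ‖V.starProjection (s : Eu d)‖ ^ 2
  nlinarith

variable {N : ℕ} {R : Type*} [MeasurableSpace R]

theorem run_refl (L : Rule d N R) {s s' : Sph d} (x : ℕ → Eu d) (r : ℕ → R) (t : ℕ)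
    (h : ∀ i < t, ⟪x i, (s' : Eu d)⟫ = ⟪x i, (s : Eu d)⟫) : L.run s' x r t = L.run s x r t := by
  induction t with
  | zero => rfl
  | succ t ih =>
    simp only [Rule.run, ih fun i hi => h i (by omega), h t (by omega)]

/-- With fewer than `d / 4` rows the success probability is bounded away from `2 / 3`. -/
theorem few_rows [IsProbabilityMeasure (P309.unifSphere (Eu d))] (hd : 1 ≤ d) (L : Rule d N R)
    (T : ℕ) (x : ℕ → Eu d) (r : ℕ → R) {ε : ℝ} (hε : ε ≤ 1 / 2)
    (hA : MeasurableSet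
      {s : Sph d | Real.arccos ⟪(L.estimate T s x r : Eu d), (s : Eu d)⟫ ≤ ε}) :
    P309.unifSphere (Eu d)
        {s : Sph d | Real.arccos ⟪(L.estimate T s x r : Eu d), (s : Eu d)⟫ ≤ ε} ≤
      ENNReal.ofReal (1 / 2 + 2 / 3 * (T / d)) := by
  let V : Submodule ℝ (Eu d) := Submodule.span ℝ (range fun i : Fin T => x i)
  have hV : Module.finrank ℝ V ≤ T := by
    have := finrank_range_le_card (R := ℝ) fun i : Fin T => x i
    rwa [Fintype.card_fin] at this
  have h := refl_bound hd V (g := fun s => L.estimate T s x r) (fun s => by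
    have : L.run (sphMap V.reflection s) x r T = L.run s x r T := run_refl L x r T fun i hi => by
      have hx : x i ∈ V := Submodule.subset_span ⟨⟨i, hi⟩, rfl⟩
      change ⟪x i, V.reflection (s : Eu d)⟫ = _
      conv_lhs => rw [← Submodule.reflection_mem_subspace_eq_self hx,
        LinearIsometryEquiv.inner_map_map]
    simp only [Rule.estimate, this]) hε hA
  have hd0 : (0 : ℝ) < d := by exact_mod_cast hd
  have h2 : 1 + ((Module.finrank ℝ V : ℝ≥0∞) / d) / ENNReal.ofReal (3 / 4) ≤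
      2 * ENNReal.ofReal (1 / 2 + 2 / 3 * (T / d)) := by
    have e1 : ((Module.finrank ℝ V : ℝ≥0∞) / d) = ENNReal.ofReal (Module.finrank ℝ V / d) := by
      rw [ENNReal.ofReal_div_of_pos hd0, ENNReal.ofReal_natCast, ENNReal.ofReal_natCast]
    rw [e1, ← ENNReal.ofReal_div_of_pos (by norm_num), ← ENNReal.ofReal_one,
      ← ENNReal.ofReal_add (by norm_num) (by positivity), two_mul,
      ← ENNReal.ofReal_add (by positivity) (by positivity)]
    refine ENNReal.ofReal_le_ofReal ?_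
    have : (Module.finrank ℝ V : ℝ) / d ≤ T / d := by gcongr
    linarith
  exact (ENNReal.mul_le_mul_iff_right (by norm_num) (by norm_num)).1 (h.trans h2)

end Vale.Agent.P309C9
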