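import Vale.Agent.P309C9.Defs
import Vale.Agent.P309C9.Sym
import Vale.Agent.P309B7.Main

/-!
# P309: shared randomness, all accuracies up to `1 / 2`
-/

namespace Vale.Agent.P309C9

open MeasureTheory ProbabilityTheory P309 Vale.Agent.P309B7
open scoped ENNReal RealInnerProductSpace

universe u

variable {d N N' : ℕ} {R Ω : Type u} [MeasurableSpace R] [MeasurableSpace Ω]

theorem meas_ev (L : Rule d N R) (T : ℕ) (ε : ℝ) :
    MeasurableSet {p : (P309B7.Sph d × (ℕ → Eu d)) × (ℕ → R) |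
      Real.arccos ⟪(L.estimate T p.1.1 p.1.2 p.2 : Eu d), (p.1.1 : Eu d)⟫ ≤ ε} :=
  ((L.meas_out'.comp ((L.meas_run measurable_fst.fst measurable_fst.snd measurable_snd T).prodMk
    ((measurable_pi_apply 1).comp measurable_snd))).prodMk measurable_fst.fst) (meas_good ε)

/-- the success probability for the fixed seeds `r`. -/
noncomputable def fixed (L : Rule d N R) (T : ℕ) (ε : ℝ) (r : ℕ → R) : ℝ≥0∞ :=
  (unifSphere (Eu d)).prod (Measure.infinitePi fun _ : ℕ => stdGaussian (Eu d))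
    {p | Real.arccos ⟪(L.estimate T p.1 p.2 r : Eu d), (p.1 : Eu d)⟫ ≤ ε}

theorem fixed_eq (L : Rule d N R) (hN : N ≤ N') (r : ℕ → R) :
    ∃ K : Learner (Eu d) N', ((∀ t, L.out t = L.out 0) → K.FixedOutput) ∧
      ∀ T ε, fixed L T ε r = K.successProb T ε := by
  obtain ⟨K, ι, h1, h2⟩ := to_learner L hN fun t => Measure.dirac (r t)
  refine ⟨K, h2, fun T ε => ?_⟩
  have hA : MeasurableSet {p : P309B7.Sph d × (ℕ → Eu d) |
      Real.arccos ⟪(L.estimate T p.1 p.2 r : Eu d), (p.1 : Eu d)⟫ ≤ ε} :=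
    measurable_prodMk_right (meas_ev L T ε)
  rw [fixed, Measure.prod_apply hA]
  refine lintegral_congr fun s => ?_
  rw [← h1.section_eq T ε s, Measure.infinitePi_dirac,
    ← lintegral_indicator_one (measurable_prodMk_left hA)]
  refine lintegral_congr fun x => ?_
  have hB : MeasurableSet {r : ℕ → R |
      Real.arccos ⟪(L.estimate T s x r : Eu d), (s : Eu d)⟫ ≤ ε} :=
    measurable_prodMk_left (x := (s, x)) (meas_ev L T ε)
  rw [Measure.dirac_apply' _ hB]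
  rfl

theorem fixed_le (hd : 1 ≤ d) (L : Rule d N R) (T : ℕ) {ε : ℝ} (hε : ε ≤ 1 / 2) (r : ℕ → R) :
    fixed L T ε r ≤ ENNReal.ofReal (1 / 2 + 2 / 3 * (T / d)) := by
  have := Upper.isProb_unifSphere hd
  have hA : MeasurableSet {p : P309B7.Sph d × (ℕ → Eu d) |
      Real.arccos ⟪(L.estimate T p.1 p.2 r : Eu d), (p.1 : Eu d)⟫ ≤ ε} :=
    measurable_prodMk_right (meas_ev L T ε)
  rw [fixed, Measure.prod_apply_symm hA]
  refine (lintegral_mono fun x => few_rows hd L T x r hε (measurable_prodMk_right hA)).trans ?_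
  simp

variable {P : Measure Ω} {S : Ω → P309B7.Sph d} {X : ℕ → Ω → Eu d} {U : ℕ → Ω → R}

theorem of_exp (h : IsExperiment P S X U) : IsShared P S X U :=
  ⟨h.prob, h.measS, h.measX, h.measU, h.lawS, h.lawX, h.indX, h.indSX, h.indSXU⟩

/-- some fixed seeds are at least as good as the random ones. -/
theorem IsShared.exists_fixed (hE : IsShared P S X U) (L : Rule d N R) (T : ℕ) (ε : ℝ) :
    ∃ r, L.success T ε P S X U ≤ fixed L T ε r := by
  have := hE.prob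
  have hX : Measurable fun ω t => X t ω := measurable_pi_lambda _ hE.measX
  have hU : Measurable fun ω t => U t ω := measurable_pi_lambda _ hE.measU
  have : IsProbabilityMeasure (P.map fun ω t => U t ω) :=
    Measure.isProbabilityMeasure_map hU.aemeasurable
  have : IsProbabilityMeasure (unifSphere (Eu d)) :=
    hE.lawS ▸ Measure.isProbabilityMeasure_map hE.measS.aemeasurable
  have law : P.map (fun ω => ((S ω, fun t => X t ω), fun t => U t ω)) =
      ((unifSphere (Eu d)).prod (Measure.infinitePi fun _ : ℕ => stdGaussian (Eu d))).prod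
        (P.map fun ω t => U t ω) := by
    rw [hE.indSXU.map_prod_eq_prod_map_map (hE.measS.prodMk hX).aemeasurable hU.aemeasurable,
      hE.indSX.map_prod_eq_prod_map_map hE.measS.aemeasurable hX.aemeasurable, hE.lawS,
      hE.indX.map_fun_eq_infinitePi_map hE.measX]
    simp only [hE.lawX]
  have h1 := Measure.map_apply (μ := P) ((hE.measS.prodMk hX).prodMk hU) (meas_ev L T ε)
  rw [law, Measure.prod_apply_symm (meas_ev L T ε)] at h1
  have h2 : L.success T ε P S X U = ∫⁻ r, fixed L T ε r ∂P.map fun ω t => U t ω := h1.symm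
  have h3 : L.success T ε P S X U ≠ ∞ := measure_ne_top _ _
  rw [h2] at h3 ⊢
  exact exists_lintegral_le h3

theorem quarter (hd : 1 ≤ d) {T : ℕ} (h : (2 / 3 : ℝ≥0∞) ≤ ENNReal.ofReal (1 / 2 + 2 / 3 * (T / d))) :
    (d : ℝ) ≤ 4 * T := by
  have hd0 : (0 : ℝ) < d := by exact_mod_cast hd
  have h5 : (2 / 3 : ℝ≥0∞) = ENNReal.ofReal (2 / 3) := by
    rw [ENNReal.ofReal_div_of_pos (by norm_num)]
    norm_num
  rw [h5, ENNReal.ofReal_le_ofReal_iff (by positivity)] at h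
  have h6 : 1 / 4 ≤ (T : ℝ) / d := by linarith
  rw [le_div_iff₀ hd0] at h6
  linarith

theorem IsShared.quarter (hE : IsShared P S X U) (hd : 1 ≤ d) (L : Rule d N R) (T : ℕ) {ε : ℝ}
    (hε : ε ≤ 1 / 2) (h : 2 / 3 ≤ L.success T ε P S X U) : (d : ℝ) ≤ 4 * T := by
  obtain ⟨r, hr⟩ := hE.exists_fixed L T ε
  exact P309C9.quarter hd (h.trans (hr.trans (fixed_le hd L T hε r)))

theorem leastT_eq (hd : 1 ≤ d) (M : ℕ) (ε : ℝ) : leastT d M ε = leastHorizon d M ε := by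
  refine iInf_congr fun T => iInf_congr_Prop ⟨?_, ?_⟩ fun _ => rfl
  · rintro ⟨N, R, Ω, _, _, L, P, S, X, U, hN, hL, hE, h⟩
    obtain ⟨r, hr⟩ := hE.exists_fixed L T ε
    obtain ⟨K, h1, h2⟩ := fixed_eq L hN r
    exact ⟨K, h1 hL, (h2 T ε ▸ h.trans hr :)⟩
  · rintro ⟨K, hK, h⟩
    obtain ⟨L, h1, h2⟩ := of_learner hd K hK
    obtain ⟨Ω, _, P, S, X, U, hE, hU⟩ := exists_experiment hd
    refine ⟨_, unitInterval, Ω, _, _, L, P, S, X, U, le_rfl, h2, of_exp hE, ?_⟩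
    rw [hE.success_eq (K := K) (ι := id) (by simpa only [hU] using h1)]
    exact h

theorem learner_quarter (hd : 1 ≤ d) (K : Learner (Eu d) N) (hK : K.FixedOutput) (T : ℕ) {ε : ℝ}
    (hε : ε ≤ 1 / 2) (h : K.Succeeds T ε) : (d : ℝ) ≤ 4 * T := by
  obtain ⟨L, h1, -⟩ := of_learner hd K hK
  obtain ⟨Ω, _, P, S, X, U, hE, hU⟩ := exists_experiment hd
  refine (of_exp hE).quarter hd L T hε ?_
  rw [hE.success_eq (K := K) (ι := id) (by simpa only [hU] using h1)]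
  exact h

theorem small_const {c ε ε₀ : ℝ} {T : ℕ} (h0 : 0 < ε₀) (h1 : ε₀ < 1) (h2 : ε₀ ≤ ε) (hc0 : 0 ≤ c)
    (hc : c ≤ 1 / (4 * Real.log (1 / ε₀))) (h : (d : ℝ) ≤ 4 * T) :
    c * d * Real.log (1 / ε) ≤ T := by
  have hL : 0 < Real.log (1 / ε₀) := Real.log_pos (by rw [lt_div_iff₀ h0]; linarith)
  have h3 : Real.log (1 / ε) ≤ Real.log (1 / ε₀) :=
    Real.log_le_log (by have := h0.trans_le h2; positivity) (by gcongr)
  rw [le_div_iff₀ (by positivity)] at hc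
  have hd0 : (0 : ℝ) ≤ d := Nat.cast_nonneg d
  calc c * d * Real.log (1 / ε) ≤ c * d * Real.log (1 / ε₀) := by gcongr
    _ = c * (4 * Real.log (1 / ε₀)) * (d / 4) := by ring
    _ ≤ 1 * (d / 4) := by gcongr
    _ ≤ T := by linarith

/-- upper bounds for all `ε ≤ 1 / 2`. -/
theorem uppers {C₀ : ℝ} (hC₀ : 0 < C₀) (hd32 : 32 ≤ d) {ε : ℝ} (hε : 0 < ε) (hε2 : ε ≤ 1 / 2)
    {M : ℕ} (hM : (M : ℝ) ≤ C₀ * (d : ℝ) ^ 2) :
    ((d - 1) * Real.logb 2 (1 / ε) + (2 * C₀ + 16) * d ≤ M →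
      Real.log d * Real.log (Real.log d) ≤ Real.log (1 / ε) →
      ∃ T : ℕ, leastHorizon d M ε = (T : ℕ∞) ∧ (T : ℝ) ≤ 10 ^ 10 * d * Real.log (1 / ε)) ∧
    (∀ A : ℝ, 1 ≤ A → d * Real.logb 2 (1 / ε) + (15 + A) * d ≤ M →
      ∃ T : ℕ, leastHorizon d M ε = (T : ℕ∞) ∧ (T : ℝ) ≤ 10 ^ 10 * d * (Real.log (1 / ε) +
        Real.log d * Real.log (1 + Real.log (1 / ε) / A))) := by
  have hd32' : (32 : ℝ) ≤ d := by exact_mod_cast hd32
  have hd0 : (0 : ℝ) < d := by linarith only [hd32']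
  have hΛ0 : 0 ≤ Real.log (1 / ε) := by
    apply Real.log_nonneg
    rw [le_div_iff₀ hε]; linarith only [hε2]
  have hlb0 : 0 ≤ Real.logb 2 (1 / ε) := by
    unfold Real.logb
    have : 0 < Real.log 2 := Real.log_pos (by norm_num)
    positivity
  have hlogd : 2 ≤ Real.log d := by
    have h3 : Real.log 32 ≤ Real.log d := Real.log_le_log (by norm_num) hd32'
    have h4 : Real.log 32 = 5 * Real.log 2 := by
      rw [show (32 : ℝ) = 2 ^ 5 by norm_num, Real.log_pow]; norm_num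
    have := Real.log_two_gt_d9
    linarith only [h3, h4, this]
  have key : ∀ A : ℝ, 1 ≤ A → d * Real.logb 2 (1 / ε) + (15 + A) * d ≤ M →
      ∃ T : ℕ, leastHorizon d M ε = (T : ℕ∞) ∧ (T : ℝ) ≤ 2 * 10 ^ 9 * d * (Real.log (1 / ε) +
        Real.log d * Real.log (1 + Real.log (1 / ε) / A)) := fun A hA hM' => by
    obtain ⟨T, hT, hL⟩ := LMS.upper_real hd32 hε hε2 (M := M) hA hM'
    obtain ⟨T₁, k1, -, k3⟩ := LMS.leastHorizon_of_learner (Y := 0) hT
      (hL.imp fun L h => ⟨h.1, LMS.succeeds_of_forall (by omega) h.2⟩)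
      fun T _ _ => Nat.cast_nonneg T
    exact ⟨T₁, k1, k3⟩
  refine ⟨fun hM' hΛ => ?_, fun A hA hM' => ?_⟩
  · have hlog : Real.logb 2 (1 / ε) ≤ 2 * C₀ * d := by
      have h2 : ((d : ℝ) - 1) * Real.logb 2 (1 / ε) ≤ C₀ * d ^ 2 := by
        have : 0 ≤ (2 * C₀ + 16) * (d : ℝ) := by positivity
        linarith only [hM', hM, this]
      have h3 : (d : ℝ) / 2 * Real.logb 2 (1 / ε) ≤ (d - 1) * Real.logb 2 (1 / ε) := by
        apply mul_le_mul_of_nonneg_right _ hlb0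
        linarith only [hd32']
      have h4 : (d : ℝ) * Real.logb 2 (1 / ε) ≤ d * (2 * C₀ * d) := by nlinarith only [h2, h3]
      exact le_of_mul_le_mul_left h4 hd0
    obtain ⟨T, k1, k2⟩ := key 1 le_rfl (by linarith only [hM', hlog])
    refine ⟨T, k1, k2.trans ?_⟩
    have h5 := LMS.log_term_le hlogd hΛ
    have h6 : 2 * 10 ^ 9 * (d : ℝ) * (Real.log (1 / ε) +
        Real.log d * Real.log (1 + Real.log (1 / ε) / 1)) ≤
        2 * 10 ^ 9 * (d : ℝ) * (4 * Real.log (1 / ε)) := by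
      apply mul_le_mul_of_nonneg_left _ (by positivity)
      linarith only [h5]
    have h7 : 0 ≤ (d : ℝ) * Real.log (1 / ε) := by positivity
    linarith only [h6, h7]
  · obtain ⟨T, k1, k2⟩ := key A hA hM'
    refine ⟨T, k1, k2.trans ?_⟩
    have h3 : 0 ≤ Real.log (1 + Real.log (1 / ε) / A) := by
      apply Real.log_nonneg
      have : 0 ≤ Real.log (1 / ε) / A := by positivity
      linarith only [this]
    have hld : 0 ≤ Real.log d := by linarith only [hlogd]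
    have h7 : 0 ≤ (d : ℝ) * (Real.log (1 / ε) +
        Real.log d * Real.log (1 + Real.log (1 / ε) / A)) := by positivity
    linarith only [h7]

theorem main :
    ∃ C : ℝ, 0 < C ∧ ∀ C₀ : ℝ, 0 < C₀ →
    ∃ c : ℝ, 0 < c ∧ ∃ d₀ : ℕ, ∃ ε₀ : ℝ, 0 < ε₀ ∧
      ∀ d : ℕ, d₀ ≤ d → ∀ ε : ℝ, 0 < ε → ε ≤ 1 / 2 → ∀ M : ℕ, (M : ℝ) ≤ C₀ * (d : ℝ) ^ 2 →
        (∀ (T N : ℕ) (R Ω : Type u) [MeasurableSpace R] [MeasurableSpace Ω] (L : Rule d N R)
          (P : Measure Ω) (S : Ω → P309B7.Sph d) (X : ℕ → Ω → Eu d) (U : ℕ → Ω → R),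
          N ≤ 2 ^ M → IsShared P S X U →
          (2 / 3 ≤ L.success T ε P S X U → c * d * Real.log (1 / ε) ≤ T) ∧
          (ε ≤ ε₀ → (T : ℝ) < c * d * Real.log (1 / ε) →
            L.success T ε P S X U ≤ ENNReal.ofReal (Real.exp (-((d : ℝ) / 16))))) ∧
        ((M : ℝ) ≤ (d - 1) * Real.logb 2 (1 / ε) - 4 * d → leastT d M ε = ⊤) ∧
        ((d - 1) * Real.logb 2 (1 / ε) + (2 * C₀ + 16) * d ≤ M →
          Real.log d * Real.log (Real.log d) ≤ Real.log (1 / ε) →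
          ∃ T : ℕ, leastT d M ε = (T : ℕ∞) ∧
            c * d * Real.log (1 / ε) ≤ T ∧ (T : ℝ) ≤ C * d * Real.log (1 / ε)) ∧
        (∀ A : ℝ, 1 ≤ A → d * Real.logb 2 (1 / ε) + (15 + A) * d ≤ M →
          ∃ T : ℕ, leastT d M ε = (T : ℕ∞) ∧ c * d * Real.log (1 / ε) ≤ T ∧
            (T : ℝ) ≤ C * d * (Real.log (1 / ε) +
              Real.log d * Real.log (1 + Real.log (1 / ε) / A))) ∧
        (d * Real.logb 2 (d / ε) + 11 * d ≤ M → ∃ T : ℕ, leastT d M ε = (T : ℕ∞) ∧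
          c * d * Real.log (1 / ε) ≤ T ∧ (T : ℝ) ≤ 20 * d * Real.log (1 / ε)) := by
  refine ⟨10 ^ 10, by norm_num, fun C₀ hC₀ => ?_⟩
  obtain ⟨C, -, h⟩ := LMS.main
  obtain ⟨c, hc, d₀, ε₀, h0, h1, h⟩ := h C₀ hC₀
  have hL : 0 < Real.log (1 / ε₀) := Real.log_pos (by rw [lt_div_iff₀ h0]; linarith)
  have hc' : 0 < min c (1 / (4 * Real.log (1 / ε₀))) := lt_min hc (by positivity)
  refine ⟨_, hc', max d₀ 32, ε₀, h0, fun d hd ε hε hε' M hM => ?_⟩
  have hd32 : 32 ≤ d := le_of_max_le_right hd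
  have hd1 : 1 ≤ d := by omega
  have hΛ0 : 0 ≤ Real.log (1 / ε) := by
    apply Real.log_nonneg
    rw [le_div_iff₀ hε]; linarith only [hε']
  have hm : min c (1 / (4 * Real.log (1 / ε₀))) * d * Real.log (1 / ε) ≤
      c * d * Real.log (1 / ε) := by
    gcongr
    exact min_le_left _ _
  have low : ∀ T : ℕ, leastHorizon d M ε = (T : ℕ∞) →
      min c (1 / (4 * Real.log (1 / ε₀))) * d * Real.log (1 / ε) ≤ T := fun T hT => by
    obtain ⟨K, k1, k2⟩ := leastHorizon_spec hT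
    rcases le_total ε ε₀ with e | e
    · exact hm.trans ((h d (le_of_max_le_left hd) ε hε e M hM).1 T K k2)
    · exact small_const h0 h1 e hc'.le (min_le_right _ _) (learner_quarter hd1 K k1 T hε' k2)
  obtain ⟨u1, u2⟩ := uppers hC₀ hd32 hε hε' hM
  rw [leastT_eq hd1]
  refine ⟨fun T N R Ω _ _ L P S X U hN hE => ?_,
    Upper.leastHorizon_eq_top d ε (by omega) hε M, fun a b => ?_, fun A a b => ?_, fun a => ?_⟩
  · obtain ⟨r, hr⟩ := hE.exists_fixed L T ε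
    obtain ⟨K, -, hK⟩ := fixed_eq L hN r
    rw [hK] at hr
    refine ⟨fun k => ?_, fun e k => hr.trans ?_⟩
    · rcases le_total ε ε₀ with e | e
      · exact hm.trans ((h d (le_of_max_le_left hd) ε hε e M hM).1 T K (k.trans hr))
      · exact small_const h0 h1 e hc'.le (min_le_right _ _) (hE.quarter hd1 L T hε' k)
    · exact (h d (le_of_max_le_left hd) ε hε e M hM).2.1 T K (k.trans_le hm)
  · obtain ⟨T, k1, k2⟩ := u1 a b
    exact ⟨T, k1, low T k1, k2⟩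
  · obtain ⟨T, k1, k2⟩ := u2 A a b
    exact ⟨T, k1, low T k1, k2⟩
  · obtain ⟨T, k1, k2⟩ := Upper.leastHorizon_le d ε (by omega) hε hε' M a
    exact ⟨T, k1, low T k1, k2⟩

end Vale.Agent.P309C9
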